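import Vale.Agent.P112.H884.Comb

/-!
# P112, [CUTEX] + [FEW]: arc-good sets have a cut in every window, and few classes

On top of helper884's `Comb.lean`.

* `Arc m e0 s P`: every nonempty `Q ⊆ P` has a member `k` and `m` centres `c a` such that every other
  member `i` of `Q` satisfies `|s i - c a| ≤ e0 * |c a - s k|` for some `a`.
* `Conn.diam`: a connected set at threshold `D` has diameter `≤ (#P - 1) D`.
* `good_arc`: `fun P => P.card ≤ K ∧ Arc m e0 s P` is `Good`.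
* `card_pcs`: the pieces of a class are at most `m + 1`.
-/

open Finset

namespace Vale.Agent.P112.H273

open Vale.Agent.P112.H884

noncomputable section

set_option linter.unusedSectionVars false

variable {ι : Type*} [DecidableEq ι]

/-- every nonempty subset of `P` is seen from one of its members in at most `m` relative arcs of
relative size `e0` -/
def Arc (m : ℕ) (e0 : ℝ) (s : ι → ℝ) (P : Finset ι) : Prop :=
  ∀ Q ⊆ P, Q.Nonempty → ∃ k ∈ Q, ∃ c : Fin m → ℝ, ∀ i ∈ Q, i ≠ k →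
    ∃ a, |s i - c a| ≤ e0 * |c a - s k|

variable {s : ι → ℝ} {m K : ℕ} {e0 D H L : ℝ} {P Q C : Finset ι} {i j : ι}

theorem Arc.mono (h : Arc m e0 s P) (hQ : Q ⊆ P) : Arc m e0 s Q :=
  fun R hR hne => h R (hR.trans hQ) hne

/-- the variant with the distance of the member itself -/
theorem Arc.of_dist (h : ∀ Q ⊆ P, Q.Nonempty → ∃ k ∈ Q, ∃ c : Fin m → ℝ, ∀ i ∈ Q, i ≠ k →
    ∃ a, |s i - c a| ≤ e0 * |s i - s k|) (h0 : 0 ≤ e0) (h1 : e0 ≤ 1 / 2) :
    Arc m (2 * e0) s P := by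
  intro Q hQ hne
  obtain ⟨k, hk, c, hc⟩ := h Q hQ hne
  refine ⟨k, hk, c, fun i hi hik => ?_⟩
  obtain ⟨a, ha⟩ := hc i hi hik
  refine ⟨a, ha.trans ?_⟩
  have h2 := abs_sub_le (s i) (c a) (s k)
  have h3 : e0 * |s i - s k| ≤ 1 / 2 * |s i - s k| :=
    mul_le_mul_of_nonneg_right h1 (abs_nonneg _)
  have h4 : |s i - s k| ≤ 2 * |c a - s k| := by linarith
  calc e0 * |s i - s k| ≤ e0 * (2 * |c a - s k|) := mul_le_mul_of_nonneg_left h4 h0
    _ = 2 * e0 * |c a - s k| := by ring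

/-- in a set of diameter `≤ b` the arcs are contained in balls of radius `2 e0 b` -/
theorem Arc.balls (h : Arc m e0 s P) (hne : P.Nonempty) (h0 : 0 ≤ e0) (h1 : e0 ≤ 1 / 2) {b : ℝ}
    (hb : ∀ i ∈ P, ∀ j ∈ P, |s i - s j| ≤ b) :
    ∃ c : Fin (m + 1) → ℝ, ∀ i ∈ P, ∃ a, |s i - c a| ≤ 2 * e0 * b := by
  obtain ⟨k, hk, c, hc⟩ := h P Subset.rfl hne
  have hb0 : 0 ≤ b := (abs_nonneg _).trans (hb k hk k hk)
  refine ⟨Fin.cons (s k) c, fun i hi => ?_⟩
  by_cases hik : i = k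
  · refine ⟨0, ?_⟩
    rw [Fin.cons_zero, hik, sub_self, abs_zero]
    positivity
  · obtain ⟨a, ha⟩ := hc i hi hik
    refine ⟨a.succ, ?_⟩
    rw [Fin.cons_succ]
    have h2 := abs_sub_le (c a) (s i) (s k)
    rw [abs_sub_comm (c a) (s i)] at h2
    have h3 := hb i hi k hk
    have h4 : |c a - s k| ≤ 2 * b := by nlinarith [abs_nonneg (c a - s k)]
    calc |s i - c a| ≤ e0 * |c a - s k| := ha
      _ ≤ e0 * (2 * b) := mul_le_mul_of_nonneg_left h4 h0
      _ = 2 * e0 * b := by ring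

/-- one more step of a connected set -/
theorem step_up (h : Conn s D P) {x : ℝ} (hi : i ∈ P) (hix : s i ≤ x) (hj : j ∈ P)
    (hjx : x < s j) : ∃ k ∈ P, x < s k ∧ s k ≤ x + D := by
  obtain ⟨a, ha, b, hb, hbA, hab⟩ := h.2 (P.filter fun k => s k ≤ x) (filter_subset _ _)
    ⟨i, mem_filter.2 ⟨hi, hix⟩⟩ (fun h0 => by
      have : j ∈ P.filter fun k => s k ≤ x := by rw [h0]; exact hj
      rw [mem_filter] at this
      linarith [this.2])
  rw [mem_filter] at ha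
  have hbx : x < s b := by
    by_contra hcon
    exact hbA (mem_filter.2 ⟨hb, not_lt.1 hcon⟩)
  refine ⟨b, hb, hbx, ?_⟩
  have := (abs_le.1 hab).1
  linarith [ha.2]

theorem card_up (h : Conn s D P) (hD : 0 ≤ D) (hi : i ∈ P) (hj : j ∈ P) :
    ∀ n : ℕ, s i + n * D < s j → ∃ A ⊆ P, A.card = n + 2 ∧ j ∈ A ∧
      ∀ a ∈ A, a = j ∨ s a ≤ s i + n * D := by
  intro n
  induction n with
  | zero =>
    intro hn
    have hne : i ≠ j := by
      rintro rfl
      simp at hn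
    refine ⟨{i, j}, ?_, card_pair hne, by simp, ?_⟩
    · intro a ha
      rcases mem_insert.1 ha with rfl | ha
      · exact hi
      · rw [mem_singleton.1 ha]; exact hj
    · intro a ha
      rcases mem_insert.1 ha with rfl | ha
      · right; simp
      · left; exact mem_singleton.1 ha
  | succ n ih =>
    intro hn
    have hn' : s i + n * D < s j := by push_cast at hn; linarith
    obtain ⟨A, hAP, hA, hjA, hA'⟩ := ih hn'
    have hnD : 0 ≤ (n : ℝ) * D := by positivity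
    obtain ⟨k, hk, hk1, hk2⟩ := step_up h (x := s i + n * D) hi (by linarith) hj hn'
    have hkj : k ≠ j := by
      rintro rfl
      push_cast at hn
      linarith
    have hkA : k ∉ A := fun hkA => (hA' k hkA).elim hkj fun h => absurd h (not_le.2 hk1)
    refine ⟨insert k A, insert_subset hk hAP, by rw [card_insert_of_notMem hkA, hA],
      mem_insert_of_mem hjA, fun a ha => ?_⟩
    push_cast
    rcases mem_insert.1 ha with rfl | ha
    · right; linarith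
    · rcases hA' a ha with h | h
      · exact Or.inl h
      · right; linarith

/-- **Diameter of a connected set.** -/
theorem Conn_diam (h : Conn s D P) (hD : 0 ≤ D) (hi : i ∈ P) (hj : j ∈ P) :
    |s i - s j| ≤ (P.card - 1) * D := by
  wlog hij : s i ≤ s j generalizing i j
  · rw [abs_sub_comm]
    exact this hj hi (le_of_not_ge hij)
  rw [abs_sub_comm, abs_of_nonneg (by linarith)]
  by_contra hcon
  rw [not_le] at hcon
  have hP : 1 ≤ P.card := card_pos.2 ⟨i, hi⟩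
  obtain ⟨A, hAP, hA, -⟩ := card_up h hD hi hj (P.card - 1) (by
    rw [Nat.cast_sub hP, Nat.cast_one]; linarith)
  have := card_le_card hAP
  omega

theorem Conn_diam' (h : Conn s D P) (hD : 0 ≤ D) (hK : P.card ≤ K) (hi : i ∈ P) (hj : j ∈ P) :
    |s i - s j| ≤ K * D := by
  refine (Conn_diam h hD hi hj).trans (mul_le_mul_of_nonneg_right ?_ hD)
  have : (P.card : ℝ) ≤ K := by exact_mod_cast hK
  linarith

/-- **A cut** between `d / H ^ N` and `d / H`, `N = 3 (m + 1) ^ 2`, exists if `P` is covered by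
`m + 1` small balls. -/
theorem exists_cut (P : Finset ι) (c : Fin (m + 1) → ℝ) {r d : ℝ} (hH : 2 ≤ H)
    (hd : 0 < d) (hr : 8 * r * H ^ (3 * (m + 1) ^ 2) ≤ d)
    (hcov : ∀ i ∈ P, ∃ a, |s i - c a| ≤ r) :
    ∃ n < 3 * (m + 1) ^ 2, Cut s H (d / H ^ (n + 1)) P := by
  classical
  set N := 3 * (m + 1) ^ 2 with hN
  have hH0 : 0 < H := by linarith
  have hN1 : 1 ≤ (m + 1) ^ 2 := Nat.one_le_pow _ _ (Nat.succ_pos m)
  rcases P.eq_empty_or_nonempty with rfl | ⟨i0, hi0⟩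
  · exact ⟨0, by omega, fun i hi => absurd hi (notMem_empty i)⟩
  have : Nonempty ι := ⟨i0⟩
  choose! idx hidx using hcov
  by_contra hcon
  have hcon' : ∀ n < N, ∃ i ∈ P, ∃ j ∈ P, d / H ^ (n + 1) ≤ |s i - s j| ∧
      |s i - s j| < H * (d / H ^ (n + 1)) := by
    intro n hn
    by_contra hno
    push Not at hno
    refine hcon ⟨n, hn, fun i hi j hj => ?_⟩
    rcases lt_or_ge (|s i - s j|) (d / H ^ (n + 1)) with h | h
    · exact Or.inl h
    · exact Or.inr (hno i hi j hj h)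
  choose! u hu v hv h1 h2 using hcon'
  have hmaps : ∀ n ∈ Finset.range N, (fun n => (idx (u n), idx (v n))) n ∈
      (Finset.univ : Finset (Fin (m + 1) × Fin (m + 1))) := fun n _ => Finset.mem_univ _
  have hlt : (Finset.univ : Finset (Fin (m + 1) × Fin (m + 1))).card * 2 <
      (Finset.range N).card := by
    rw [Finset.card_univ, Fintype.card_prod, Fintype.card_fin, Finset.card_range, hN]
    nlinarith
  obtain ⟨y, -, hy⟩ := Finset.exists_lt_card_fiber_of_mul_lt_card_of_maps_to hmaps hlt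
  set F := (Finset.range N).filter (fun n => (idx (u n), idx (v n)) = y) with hF
  have hFne : F.Nonempty := Finset.card_pos.mp (by omega)
  set n1 := F.min' hFne with hn1
  set n3 := F.max' hFne with hn3
  have hn1F : n1 ∈ F := F.min'_mem hFne
  have hn3F : n3 ∈ F := F.max'_mem hFne
  have hgap : n1 + 2 ≤ n3 := by
    have hsub : F ⊆ Finset.Icc n1 n3 := by
      intro n hn
      exact Finset.mem_Icc.mpr ⟨F.min'_le n hn, F.le_max' n hn⟩
    have := Finset.card_le_card hsub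
    rw [Nat.card_Icc] at this
    omega
  have hn1K : n1 < N := Finset.mem_range.mp (Finset.mem_filter.mp hn1F).1
  have hn3K : n3 < N := Finset.mem_range.mp (Finset.mem_filter.mp hn3F).1
  have e1 : (idx (u n1), idx (v n1)) = (idx (u n3), idx (v n3)) := by
    rw [(Finset.mem_filter.mp hn1F).2, (Finset.mem_filter.mp hn3F).2]
  have e2 : idx (u n1) = idx (u n3) := congrArg Prod.fst e1
  have e3 : idx (v n1) = idx (v n3) := congrArg Prod.snd e1
  have a1 := hidx (u n1) (hu n1 hn1K)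
  have a2 := hidx (v n1) (hv n1 hn1K)
  have a3 := hidx (u n3) (hu n3 hn3K)
  have a4 := hidx (v n3) (hv n3 hn3K)
  rw [← e2] at a3
  rw [← e3] at a4
  have hr0 : 0 ≤ r := (abs_nonneg _).trans a1
  have hdist : |s (u n1) - s (v n1)| ≤ |s (u n3) - s (v n3)| + 4 * r := by
    have b1 : |s (u n1) - s (u n3)| ≤ 2 * r := by
      have := abs_sub_le (s (u n1)) (c (idx (u n1))) (s (u n3))
      rw [abs_sub_comm (c (idx (u n1)))] at this
      linarith
    have b2 : |s (v n3) - s (v n1)| ≤ 2 * r := by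
      have := abs_sub_le (s (v n3)) (c (idx (v n1))) (s (v n1))
      rw [abs_sub_comm (c (idx (v n1)))] at this
      linarith
    have b3 := abs_sub_le (s (u n1)) (s (u n3)) (s (v n1))
    have b4 := abs_sub_le (s (u n3)) (s (v n3)) (s (v n1))
    linarith
  have hx1 := h1 n1 hn1K
  have hx3 := h2 n3 hn3K
  have hp : 0 < H ^ (n1 + 1) := by positivity
  have f1 : H * (d / H ^ (n3 + 1)) = d / H ^ n3 := by
    rw [pow_succ]; field_simp
  have f2 : d / H ^ n3 ≤ d / H ^ (n1 + 1) / 2 := by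
    rw [div_div]
    apply div_le_div_of_nonneg_left hd.le (by positivity)
    calc H ^ (n1 + 1) * 2 ≤ H ^ (n1 + 1) * H := by nlinarith
      _ = H ^ (n1 + 2) := by ring
      _ ≤ H ^ n3 := pow_le_pow_right₀ (by linarith) hgap
  have f3 : 8 * r ≤ d / H ^ (n1 + 1) := by
    rw [le_div_iff₀ hp]
    calc 8 * r * H ^ (n1 + 1) ≤ 8 * r * H ^ N := by
          apply mul_le_mul_of_nonneg_left (pow_le_pow_right₀ (by linarith) hn1K) (by linarith)
      _ ≤ d := hr
  linarith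

/-- **Number of classes.** -/
theorem card_le_of_cov {q : ℕ} (E : Finset (Finset ι)) (c : Fin q → ℝ) {r t : ℝ}
    (hne : ∀ e ∈ E, e.Nonempty) (hrt : 2 * r < t)
    (hcov : ∀ e ∈ E, ∀ i ∈ e, ∃ a, |s i - c a| ≤ r)
    (hfar : ∀ e ∈ E, ∀ e' ∈ E, e ≠ e' → ∀ i ∈ e, ∀ j ∈ e', t ≤ |s i - s j|) : E.card ≤ q := by
  classical
  rcases E.eq_empty_or_nonempty with rfl | ⟨e0, he0⟩
  · simp
  have : Nonempty ι := ⟨(hne e0 he0).choose⟩
  have : Nonempty (Fin q) := ⟨(hcov e0 he0 _ (hne e0 he0).choose_spec).choose⟩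
  choose! p hp using hne
  have h1 : ∀ e ∈ E, ∃ a, |s (p e) - c a| ≤ r := fun e he => hcov e he _ (hp e he)
  choose! a ha using h1
  have hinj : Set.InjOn a (E : Set (Finset ι)) := by
    intro e he e' he' hee
    by_contra hne
    have h2 := hfar e he e' he' hne _ (hp e he) _ (hp e' he')
    have h3 := ha e he
    have h4 := ha e' he'
    rw [← hee] at h4
    have h5 := abs_sub_le (s (p e)) (c (a e)) (s (p e'))
    rw [abs_sub_comm (c (a e))] at h5
    linarith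
  have := card_le_card_of_injOn a (fun e _ => mem_univ (a e)) hinj
  simpa using this

/-- **[CUTEX].**  `#P ≤ K`, `P` arc-good and connected at `Δ n`: there is a cut in the window of
level `n`. -/
theorem cutex (p : Sc) (h0 : 0 ≤ e0) (h1 : e0 ≤ 1 / 2)
    (hL : p.H ^ (3 * (m + 1) ^ 2 + 1) ≤ p.L)
    (he : 16 * e0 * K * p.L * p.H ^ (3 * (m + 1) ^ 2) ≤ 1) {n : ℕ} (hK : P.card ≤ K)
    (harc : Arc m e0 s P) (hc : Conn s (p.Δ n) P) : ∃ τ, p.Win n τ ∧ Cut s p.H τ P := by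
  set N := 3 * (m + 1) ^ 2 with hN
  have hH := p.hH
  have hH0 := p.H_pos
  have hΔ := p.Δ_pos n
  have hΔ1 := p.Δ_pos (n + 1)
  have hΔ2 := p.Δ_pos (n + 2)
  obtain ⟨c, hcov⟩ := harc.balls hc.1 h0 h1 (b := K * p.Δ n)
    fun i hi j hj => Conn_diam' hc hΔ.le hK hi hj
  obtain ⟨k, hk, hcut⟩ := exists_cut P c (r := 2 * e0 * (K * p.Δ n)) (d := p.Δ (n + 1)) hH hΔ1 (by
    rw [p.Δ_succ n]
    calc 8 * (2 * e0 * (K * (p.L * p.Δ (n + 1)))) * p.H ^ (3 * (m + 1) ^ 2)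
        = (16 * e0 * K * p.L * p.H ^ (3 * (m + 1) ^ 2)) * p.Δ (n + 1) := by ring
      _ ≤ 1 * p.Δ (n + 1) := mul_le_mul_of_nonneg_right he hΔ1.le
      _ = p.Δ (n + 1) := one_mul _) hcov
  refine ⟨_, ⟨?_, ?_⟩, hcut⟩
  · rw [le_div_iff₀ (by positivity), p.Δ_succ (n + 1)]
    calc p.H * p.Δ (n + 2) * p.H ^ (k + 1) = p.H ^ (k + 2) * p.Δ (n + 2) := by ring
      _ ≤ p.H ^ (N + 1) * p.Δ (n + 2) :=
        mul_le_mul_of_nonneg_right (pow_le_pow_right₀ (by linarith) (by omega)) hΔ2.le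
      _ ≤ p.L * p.Δ (n + 2) := mul_le_mul_of_nonneg_right hL hΔ2.le
  · apply div_le_div_of_nonneg_left hΔ1.le hH0
    calc p.H = p.H ^ 1 := (pow_one _).symm
      _ ≤ p.H ^ (k + 1) := pow_le_pow_right₀ (by linarith) (by omega)

/-- **The family of nodes is `Good`.** -/
theorem good_arc (p : Sc) (s : ι → ℝ) (h0 : 0 ≤ e0) (h1 : e0 ≤ 1 / 2)
    (hL : p.H ^ (3 * (m + 1) ^ 2 + 1) ≤ p.L)
    (he : 16 * e0 * K * p.L * p.H ^ (3 * (m + 1) ^ 2) ≤ 1) :
    Good p s (fun P => P.card ≤ K ∧ Arc m e0 s P) where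
  her := fun _ _ h hQ => ⟨(card_le_card hQ).trans h.1, h.2.mono hQ⟩
  cut := fun _ _ h hc => cutex p h0 h1 hL he h.1 h.2 hc

section Pieces

variable {p : Sc} {𝒢 : Finset ι → Prop} {n : ℕ} {e e' : Finset ι}

/-- two members of the same piece -/
theorem pcs_near (hg : Good p s 𝒢) (hP : 𝒢 P) (hc : Conn s (p.Δ n) P) (hC : C ∈ cls p s n P)
    (he : e ∈ pcs p s n P C) (hi : i ∈ e) (hj : j ∈ e) : |s i - s j| < tauN p s n P C := by
  obtain ⟨hw, hcut⟩ := hg.tauN_spec hP hc hC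
  obtain ⟨a, ha, rfl⟩ := (hg.mem_pcs hP hc hC).1 he
  have h1 := cl_eq p.hH hw.pos (hg.pcs_cut hP hc hC) ha hi
  rw [← h1] at hj
  exact (mem_cl.1 hj).2

/-- members of different pieces -/
theorem pcs_far (hg : Good p s 𝒢) (hP : 𝒢 P) (hc : Conn s (p.Δ n) P) (hC : C ∈ cls p s n P)
    (he : e ∈ pcs p s n P C) (he' : e' ∈ pcs p s n P C) (hne : e ≠ e') (hi : i ∈ e)
    (hj : j ∈ e') : p.H * tauN p s n P C ≤ |s i - s j| := by
  obtain ⟨hw, hcut⟩ := hg.tauN_spec hP hc hC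
  have hcutC := hg.pcs_cut hP hc hC
  obtain ⟨a, ha, rfl⟩ := (hg.mem_pcs hP hc hC).1 he
  obtain ⟨a', ha', rfl⟩ := (hg.mem_pcs hP hc hC).1 he'
  have hiC := (mem_cl.1 hi).1
  have hjC := (mem_cl.1 hj).1
  refine (hcutC i hiC j hjC).resolve_left fun hij => hne ?_
  rw [← cl_eq p.hH hw.pos hcutC ha hi, ← cl_eq p.hH hw.pos hcutC ha' hj]
  exact (cl_eq p.hH hw.pos hcutC hiC (mem_cl.2 ⟨hjC, hij⟩)).symm

/-- the pieces are disjoint -/
theorem pcs_disj (hg : Good p s 𝒢) (hP : 𝒢 P) (hc : Conn s (p.Δ n) P) (hC : C ∈ cls p s n P)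
    (he : e ∈ pcs p s n P C) (he' : e' ∈ pcs p s n P C) (hne : e ≠ e') : Disjoint e e' := by
  obtain ⟨hw, hcut⟩ := hg.tauN_spec hP hc hC
  rw [disjoint_left]
  intro i hi hi'
  have h1 := pcs_far hg hP hc hC he he' hne hi hi'
  rw [sub_self, abs_zero] at h1
  have := mul_pos p.H_pos hw.pos
  linarith

/-- the pieces cover the class -/
theorem pcs_cover (hg : Good p s 𝒢) (hP : 𝒢 P) (hc : Conn s (p.Δ n) P) (hC : C ∈ cls p s n P)
    (hi : i ∈ C) : ∃ e ∈ pcs p s n P C, i ∈ e :=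
  ⟨_, (hg.mem_pcs hP hc hC).2 ⟨i, hi, rfl⟩, self_mem_cl (hg.tauN_spec hP hc hC).1.pos hi⟩

theorem pcs_subset (hg : Good p s 𝒢) (hP : 𝒢 P) (hc : Conn s (p.Δ n) P) (hC : C ∈ cls p s n P)
    (he : e ∈ pcs p s n P C) : e ⊆ C := by
  obtain ⟨a, ha, rfl⟩ := (hg.mem_pcs hP hc hC).1 he
  exact filter_subset _ _

theorem pcs_nonempty (hg : Good p s 𝒢) (hP : 𝒢 P) (hc : Conn s (p.Δ n) P)
    (hC : C ∈ cls p s n P) (he : e ∈ pcs p s n P C) : e.Nonempty := by
  obtain ⟨a, ha, rfl⟩ := (hg.mem_pcs hP hc hC).1 he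
  exact ⟨a, self_mem_cl (hg.tauN_spec hP hc hC).1.pos ha⟩

/-- the pieces of a class sum up to the class -/
theorem sum_pcs {M : Type*} [AddCommMonoid M] (hg : Good p s 𝒢) (hP : 𝒢 P)
    (hc : Conn s (p.Δ n) P) (hC : C ∈ cls p s n P) (f : ι → M) :
    ∑ e ∈ pcs p s n P C, ∑ i ∈ e, f i = ∑ i ∈ C, f i := by
  classical
  have h1 : C = (pcs p s n P C).biUnion id := by
    ext i
    rw [mem_biUnion]
    constructor
    · intro hi
      exact pcs_cover hg hP hc hC hi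
    · rintro ⟨e, he, hi⟩
      exact pcs_subset hg hP hc hC he hi
  conv_rhs => rw [h1]
  rw [sum_biUnion]
  · rfl
  · intro e he e' he' hne
    exact pcs_disj hg hP hc hC he he' hne

/-- the diameter of a class -/
theorem cls_le (hg : Good p s 𝒢) (hP : 𝒢 P) (hc : Conn s (p.Δ n) P) (hC : C ∈ cls p s n P)
    (hi : i ∈ C) (hj : j ∈ C) : |s i - s j| ≤ p.Δ (n + 1) :=
  (hg.cls_diam hP hc hC hi hj).le.trans (hg.tau_spec hP hc).1.le

/-- `Δ (n + 1) = L ^ 2 Δ (n + 3) ≤ (L ^ 2 / H) τ`. -/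
theorem le_tauN (hg : Good p s 𝒢) (hP : 𝒢 P) (hc : Conn s (p.Δ n) P) (hC : C ∈ cls p s n P) :
    p.H * p.Δ (n + 1) ≤ p.L ^ 2 * tauN p s n P C := by
  have h1 := (hg.tauN_spec hP hc hC).1.1
  have h2 : p.Δ (n + 1) = p.L ^ 2 * p.Δ (n + 1 + 2) := by
    rw [p.Δ_succ (n + 1), p.Δ_succ (n + 1 + 1)]
    ring
  rw [h2]
  calc p.H * (p.L ^ 2 * p.Δ (n + 1 + 2)) = p.L ^ 2 * (p.H * p.Δ (n + 1 + 2)) := by ring
    _ ≤ _ := mul_le_mul_of_nonneg_left h1 (by positivity)

/-- **[FEW].**  At most `m + 1` pieces. -/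
theorem card_pcs (hg : Good p s 𝒢) (hP : 𝒢 P) (hc : Conn s (p.Δ n) P) (hC : C ∈ cls p s n P)
    (harc : Arc m e0 s P) (h0 : 0 ≤ e0) (h1 : e0 ≤ 1 / 2) (he : 4 * e0 * p.L ^ 2 < p.H ^ 2) :
    (pcs p s n P C).card ≤ m + 1 := by
  obtain ⟨c, hcov⟩ := (harc.mono (cls_sub hC)).balls (hg.cls_ne hP hc hC) h0 h1
    (b := p.Δ (n + 1)) fun i hi j hj => cls_le hg hP hc hC hi hj
  refine card_le_of_cov (pcs p s n P C) c (t := p.H * tauN p s n P C)
    (fun e he => pcs_nonempty hg hP hc hC he) ?_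
    (fun e he i hi => hcov i (pcs_subset hg hP hc hC he hi))
    (fun e he e' he' hne i hi j hj => pcs_far hg hP hc hC he he' hne hi hj)
  have h2 := le_tauN hg hP hc hC
  have h3 := p.H_pos
  have h4 := p.Δ_pos (n + 1)
  have h5 := (hg.tauN_spec hP hc hC).1.pos
  have h6 : 0 < p.L := p.L_pos
  have h7 : 4 * e0 * p.Δ (n + 1) < p.H * tauN p s n P C := by
    have h8 : (4 * e0 * p.L ^ 2) * (p.H * p.Δ (n + 1)) < p.H ^ 2 * (p.H * p.Δ (n + 1)) :=
      mul_lt_mul_of_pos_right he (by positivity)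
    have h9 : p.H ^ 2 * (p.H * p.Δ (n + 1)) ≤ p.H ^ 2 * (p.L ^ 2 * tauN p s n P C) :=
      mul_le_mul_of_nonneg_left h2 (by positivity)
    have h10 : (p.L ^ 2 * p.H) * (4 * e0 * p.Δ (n + 1)) < (p.L ^ 2 * p.H) *
        (p.H * tauN p s n P C) := by
      calc (p.L ^ 2 * p.H) * (4 * e0 * p.Δ (n + 1)) = (4 * e0 * p.L ^ 2) * (p.H * p.Δ (n + 1)) := by
            ring
        _ < p.H ^ 2 * (p.H * p.Δ (n + 1)) := h8
        _ ≤ p.H ^ 2 * (p.L ^ 2 * tauN p s n P C) := h9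
        _ = _ := by ring
    exact lt_of_mul_lt_mul_left h10 (by positivity)
  linarith

end Pieces

end

end Vale.Agent.P112.H273
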